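import Vale.Agent.P121.Defs

open MeasureTheory
open scoped ENNReal

namespace Vale.Agent.N121

open Vale.Agent.P121

variable {E : Type*} [NormedAddCommGroup E] [MeasurableSpace E]

/-- `π` is an optimal plan: a coupling whose Coulomb cost is the Kantorovich value. -/
def IsOptimal (μ : Measure E) (π : Measure (E × E × E)) : Prop :=
  IsCoupling μ π ∧ ∫⁻ p, coulombCost p ∂π = kantorovich μ

/-- The masses that optimal plans give to unions of `m` Borel graphs over the first point. -/
def graphMass (μ : Measure E) (m : ℕ) : Set ℝ≥0∞ :=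
  {r | ∃ π, IsOptimal μ π ∧ ∃ T : Fin m → E → E × E, (∀ i, Measurable (T i)) ∧
    π {p | ∃ i, p.2 = T i p.1} = r}

end Vale.Agent.N121
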