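import Vale.Agent.P121.Bdl.B1

/-! A central cluster with many pairs of satellites: the geometry. -/

open MeasureTheory Set Filter Topology Metric
open scoped RealInnerProductSpace ENNReal NNReal

namespace Vale.Agent.N121

open Vale.Agent.P121

variable {E : Type*} [NormedAddCommGroup E] [InnerProductSpace ℝ E] {κ : Type}

/-- The centres of the clusters. -/
def st (e : E) (R : κ → E ≃ₗᵢ[ℝ] E) : Option (κ × Bool) → E
  | none => 0
  | some (k, true) => R k e
  | some (k, false) => -R k e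

/-- The parametrised clusters. -/
def PP (R : κ → E ≃ₗᵢ[ℝ] E) (Y Z : E → E) : Option (κ × Bool) → E → E
  | none => fun x => x
  | some (k, true) => fun x => R k (Y (R k x))
  | some (k, false) => fun x => R k (Z (R k x))

/-- The potential on the clusters. -/
noncomputable def pt (e : E) (R : κ → E ≃ₗᵢ[ℝ] E) (Y Z : E → E) : Option (κ × Bool) → E → ℝ
  | none => UA
  | some (k, true) => fun x => UB e (Y (R k x))
  | some (k, false) => fun x => UC e Y Z (R k x)

/-- The potential at the centres. -/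
noncomputable def W : Option (κ × Bool) → ℝ
  | none => 3 / 2
  | some _ => 1 / 2

/-- The centre and a pair of opposite satellites. -/
def Spec (i j l : Option (κ × Bool)) : Prop :=
  ∃ k b, (i = none ∧ j = some (k, b) ∧ l = some (k, !b)) ∨
    (j = none ∧ i = some (k, b) ∧ l = some (k, !b)) ∨
    (l = none ∧ i = some (k, b) ∧ j = some (k, !b))

omit [InnerProductSpace ℝ E] in
theorem half_le {u v : E} (hu : ‖u‖ = 1) (hv : ‖v‖ = 1) (h : u ≠ v) : 1 / 2 ≤ ‖u - v‖⁻¹ := by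
  rw [one_div]
  exact inv_anti₀ (norm_pos_iff.2 (sub_ne_zero.2 h)) (by linarith [norm_sub_le u v])

theorem half_lt {u v : E} (hu : ‖u‖ = 1) (hv : ‖v‖ = 1) (h : u ≠ v) (h' : u ≠ -v) :
    1 / 2 < ‖u - v‖⁻¹ := by
  rw [one_div]
  refine inv_strictAnti₀ (norm_pos_iff.2 (sub_ne_zero.2 h)) ?_
  have h1 := parallelogram_law_with_norm ℝ u v
  have h2 : 0 < ‖u + v‖ := norm_pos_iff.2 fun h3 => h' (eq_neg_of_add_eq_zero_left h3)
  rw [hu, hv] at h1
  nlinarith [norm_nonneg (u - v)]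

variable {e : E} {R : κ → E ≃ₗᵢ[ℝ] E}

theorem norm_st (he : ‖e‖ = 1) (a : κ × Bool) : ‖st e R (some a)‖ = 1 := by
  rcases a with ⟨k, _ | _⟩ <;> simp [st, he]

theorem st_not (k : κ) (b : Bool) : st e R (some (k, !b)) = -st e R (some (k, b)) := by
  cases b <;> simp [st]

theorem st_injective (he : ‖e‖ = 1) (hR : ∀ k l, k ≠ l → R k e ≠ R l e ∧ R k e ≠ -R l e) :
    Function.Injective (st e R) := by
  have h0 : ∀ a, st e R (some a) ≠ 0 := fun a h => by simpa [h] using norm_st (R := R) he a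
  have h1 : ∀ k, R k e ≠ -R k e := fun k h => h0 (k, true) (by
    have h2 : (2 : ℝ) • R k e = 0 := by rw [two_smul, add_eq_zero_iff_eq_neg]; exact h
    exact (smul_eq_zero.1 h2).resolve_left two_ne_zero)
  rintro (_ | ⟨k, b⟩) (_ | ⟨l, c⟩) h
  · rfl
  · exact absurd h.symm (h0 _)
  · exact absurd h (h0 _)
  · by_cases hkl : k = l
    · subst hkl
      cases b <;> cases c
      exacts [rfl, absurd h.symm (h1 k), absurd h (h1 k), rfl]
    · cases b <;> cases c
      · exact absurd (neg_injective h) (hR k l hkl).1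
      · exact absurd (neg_eq_iff_eq_neg.1 h) (hR k l hkl).2
      · exact absurd h (hR k l hkl).2
      · exact absurd h (hR k l hkl).1

theorem st_lt [MeasurableSpace E] (he : ‖e‖ = 1) (hi : Function.Injective (st e R))
    {i j l : Option (κ × Bool)} (h : ¬ Spec i j l) :
    ENNReal.ofReal (W i + W j + W l) < coulombCost (st e R i, st e R j, st e R l) := by
  by_cases hne : st e R i = st e R j ∨ st e R i = st e R l ∨ st e R j = st e R l
  · rw [cost_top _ _ _ hne]
    exact ENNReal.ofReal_lt_top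
  push Not at hne
  obtain ⟨n1, n2, n3⟩ := hne
  have key : ∀ a b : κ × Bool, st e R (some a) ≠ st e R (some b) → b ≠ (a.1, !a.2) →
      1 / 2 < ‖st e R (some a) - st e R (some b)‖⁻¹ := fun a b h1 h2 =>
    half_lt (norm_st he a) (norm_st he b) h1 fun h3 => h2 (Option.some.inj (hi (by
      rw [st_not, h3, neg_neg])))
  have h0 : st e R none = 0 := rfl
  rw [ofReal_cR_le _ _ _ n1 n2 n3]
  refine (ENNReal.ofReal_lt_ofReal_iff_of_nonneg ?_).2 ?_
  · rcases i with _ | i <;> rcases j with _ | j <;> rcases l with _ | l <;> norm_num [W]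
  unfold cR
  rcases i with _ | i <;> rcases j with _ | j <;> rcases l with _ | l
  · exact absurd rfl n1
  · exact absurd rfl n1
  · exact absurd rfl n2
  · have := key j l n3 fun h1 => h ⟨j.1, j.2, Or.inl ⟨rfl, rfl, by rw [h1]⟩⟩
    simp only [h0, zero_sub, norm_neg, norm_st he, W]
    linarith
  · exact absurd rfl n3
  · have := key i l n2 fun h1 => h ⟨i.1, i.2, Or.inr (Or.inl ⟨rfl, rfl, by rw [h1]⟩)⟩
    simp only [h0, zero_sub, sub_zero, norm_neg, norm_st he, W]
    linarith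
  · have := key i j n1 fun h1 => h ⟨i.1, i.2, Or.inr (Or.inr ⟨rfl, rfl, by rw [h1]⟩)⟩
    simp only [h0, sub_zero, norm_st he, W]
    linarith
  · have a1 := half_le (norm_st he i) (norm_st he j) n1
    have a2 := half_le (norm_st he i) (norm_st he l) n2
    have a3 := half_le (norm_st he j) (norm_st he l) n3
    simp only [W]
    by_cases h1 : j = (i.1, !i.2)
    · have := key i l n2 fun h2 => n3 (by rw [h1, h2])
      linarith
    · linarith [key i j n1 h1]

theorem exists_delta [MeasurableSpace E] [Finite κ] (he : ‖e‖ = 1)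
    (hi : Function.Injective (st e R)) : ∃ δ : ℝ, 0 < δ ∧ δ ≤ 1 / 100 ∧
      (∀ i j, i ≠ j → 2 * δ < dist (st e R i) (st e R j)) ∧
      ∀ i j l, ¬ Spec i j l → ∀ p ∈ ball (st e R i, st e R j, st e R l) δ,
        ENNReal.ofReal (W i + W j + W l + 21 * δ) < coulombCost p := by
  have hc : Continuous (coulombCost : E × E × E → ℝ≥0∞) := by
    unfold coulombCost
    exact (((continuous_fst.edist continuous_snd.fst).inv).add
      ((continuous_fst.edist continuous_snd.snd).inv)).add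
      ((continuous_snd.fst.edist continuous_snd.snd).inv)
  have h1 : ∀ᶠ δ : ℝ in 𝓝[>] 0, ∀ i j, i ≠ j → 2 * δ < dist (st e R i) (st e R j) := by
    simp only [eventually_all]
    intro i j hij
    filter_upwards [Ioo_mem_nhdsGT (half_pos (dist_pos.2 (hi.ne hij)))] with δ h
    linarith [h.2]
  have h2 : ∀ᶠ δ : ℝ in 𝓝[>] 0, ∀ i j l, ¬ Spec i j l →
      ∀ p ∈ ball (st e R i, st e R j, st e R l) δ,
        ENNReal.ofReal (W i + W j + W l + 21 * δ) < coulombCost p := by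
    rw [eventually_all]
    intro i
    rw [eventually_all]
    intro j
    rw [eventually_all]
    intro l
    by_cases h : Spec i j l
    · exact Eventually.of_forall fun _ h' => absurd h h'
    obtain ⟨ε, hε, h3⟩ := exists_ball_of_lt (X := (E × E × E) × ℝ)
      (f := fun v => ENNReal.ofReal (W i + W j + W l + 21 * v.2)) (g := fun v => coulombCost v.1)
      (ENNReal.continuous_ofReal.comp (by fun_prop)) (hc.comp continuous_fst)
      (u := ((st e R i, st e R j, st e R l), 0)) (by simpa using st_lt he hi h)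
    filter_upwards [Ioo_mem_nhdsGT hε] with δ hδ _ p hp
    refine h3 (p, δ) ?_
    rw [mem_ball, Prod.dist_eq]
    exact max_lt (hp.trans hδ.2) (by simpa [abs_of_pos hδ.1] using hδ.2)
  obtain ⟨δ, ⟨a1, a2⟩, a3⟩ := ((h1.and h2).and
    (Ioo_mem_nhdsGT (by norm_num : (0 : ℝ) < 1 / 100))).exists
  exact ⟨δ, a3.1, a3.2.le, a1, a2⟩

variable {ε : ℝ} {Y Z : E → E}

theorem spec_pair (he : ‖e‖ = 1) (hp : LocalPack e ε Y Z) (hRR : ∀ k x, R k (R k x) = x) (k : κ)
    (b : Bool) {s t r : E} (ht : t ∈ ball (0 : E) ε) (hr : r ∈ ball (0 : E) ε)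
    (a1 : s ≠ PP R Y Z (some (k, b)) t) (a2 : s ≠ PP R Y Z (some (k, !b)) r)
    (a3 : PP R Y Z (some (k, b)) t ≠ PP R Y Z (some (k, !b)) r) :
    pt e R Y Z none s + pt e R Y Z (some (k, b)) t + pt e R Y Z (some (k, !b)) r ≤
      cR s (PP R Y Z (some (k, b)) t) (PP R Y Z (some (k, !b)) r) ∧
    (pt e R Y Z none s + pt e R Y Z (some (k, b)) t + pt e R Y Z (some (k, !b)) r =
      cR s (PP R Y Z (some (k, b)) t) (PP R Y Z (some (k, !b)) r) →
      PP R Y Z (some (k, b)) t = PP R Y Z (some (k, b)) s) := by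
  cases b
  · have h := spec034 (s := s) (t := r) (r := t) he hp (hRR k) ht a2 a1 a3.symm
    rw [cR_swap23, add_right_comm] at h
    exact ⟨h.1, fun h1 => by rw [(h.2 h1).1]⟩
  · have h := spec034 (s := s) (t := t) (r := r) he hp (hRR k) hr a1 a2 a3
    exact ⟨h.1, fun h1 => by
      rw [(h.2 h1).1]
      exact (h.2 h1).2⟩

/-- The data of the construction. -/
structure Pk [MeasurableSpace E] (e : E) (R : κ → E ≃ₗᵢ[ℝ] E) (ε : ℝ) (Y Z : E → E) (K : ℝ) :
    Prop where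
  pos : 0 < ε
  meas : ∀ i, Measurable (PP R Y Z i)
  measp : ∀ i, Measurable (pt e R Y Z i)
  bdd : ∀ i, ∀ s ∈ ball (0 : E) ε, 0 ≤ pt e R Y Z i s ∧ pt e R Y Z i s ≤ 2
  lip : ∀ i, ∀ s ∈ ball (0 : E) ε, ∀ t ∈ ball (0 : E) ε,
    ‖s - t‖ ≤ K * ‖PP R Y Z i s - PP R Y Z i t‖
  sep : ∀ i j, ∀ s ∈ ball (0 : E) ε, ∀ t ∈ ball (0 : E) ε, PP R Y Z i s = PP R Y Z j t → i = j
  le : ∀ i j l, ∀ s ∈ ball (0 : E) ε, ∀ t ∈ ball (0 : E) ε, ∀ r ∈ ball (0 : E) ε,
    ENNReal.ofReal (pt e R Y Z i s + pt e R Y Z j t + pt e R Y Z l r) ≤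
      coulombCost (PP R Y Z i s, PP R Y Z j t, PP R Y Z l r)
  eq : ∀ k, ∀ s ∈ ball (0 : E) ε,
    coulombCost (s, PP R Y Z (some (k, true)) s, PP R Y Z (some (k, false)) s) = ENNReal.ofReal
      (pt e R Y Z none s + pt e R Y Z (some (k, true)) s + pt e R Y Z (some (k, false)) s)
  con : ∀ j l, ∀ s ∈ ball (0 : E) ε, ∀ t ∈ ball (0 : E) ε, ∀ r ∈ ball (0 : E) ε,
    coulombCost (s, PP R Y Z j t, PP R Y Z l r) =
      ENNReal.ofReal (pt e R Y Z none s + pt e R Y Z j t + pt e R Y Z l r) →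
      ∃ m, PP R Y Z j t = PP R Y Z (some m) s

theorem exists_pk [FiniteDimensional ℝ E] [MeasurableSpace E] [BorelSpace E] [Finite κ]
    (he : ‖e‖ = 1) (hR : ∀ k l, k ≠ l → R k e ≠ R l e ∧ R k e ≠ -R l e)
    (hRR : ∀ k x, R k (R k x) = x) : ∃ ε Y Z K, Pk e R ε Y Z K := by
  classical
  obtain ⟨δ, hδ, hδ1, hsep, hst⟩ := exists_delta he (st_injective he hR)
  obtain ⟨ε, Y₀, Z₀, K, hε, hε1, hK, hY₀, hZ₀, hpk, hlip₀⟩ := local_package e he δ hδ
  set D := ball (0 : E) ε with hD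
  have hDm : MeasurableSet D := isOpen_ball.measurableSet
  obtain ⟨Y, hY, hYe⟩ : ∃ Y : E → E, Measurable Y ∧ ∀ x ∈ D, Y x = Y₀ x :=
    ⟨_, hY₀.measurable_piecewise (continuousOn_const (c := 0)) hDm,
      fun x hx => Set.piecewise_eq_of_mem _ _ _ hx⟩
  obtain ⟨Z, hZ, hZe⟩ : ∃ Z : E → E, Measurable Z ∧ ∀ x ∈ D, Z x = Z₀ x :=
    ⟨_, hZ₀.measurable_piecewise (continuousOn_const (c := 0)) hDm,
      fun x hx => Set.piecewise_eq_of_mem _ _ _ hx⟩
  have hq : ∀ x ∈ D, ‖Y x - e‖ < δ ∧ ‖Z x + e‖ < δ ∧ eqA x (Y x) (Z x) = 0 ∧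
      eqB e x (Y x) (Z x) = 0 ∧ |cR x (Y x) (Z x) - 5 / 2| < δ := fun x hx => by
    rw [hYe x hx, hZe x hx, ← cR_base e he]
    exact hpk x hx
  have hp : LocalPack e ε Y Z :=
    ⟨hε, hε1.trans hδ1, fun x hx => (hq x hx).1.trans_le hδ1,
      fun x hx => (hq x hx).2.1.trans_le hδ1, fun x hx => (hq x hx).2.2.1,
      fun x hx => (hq x hx).2.2.2.1, fun x hx => (hq x hx).2.2.2.2.trans_le hδ1⟩
  have hRD : ∀ k, ∀ s ∈ D, R k s ∈ D := fun k s hs => R_mem_ball hs
  have hn : ∀ s ∈ D, ‖s‖ < δ := fun s hs => (mem_ball_zero_iff.1 hs).trans_le hε1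
  have near : ∀ i, ∀ s ∈ D, dist (PP R Y Z i s) (st e R i) < δ := by
    rintro (_ | ⟨k, _ | _⟩) s hs <;> rw [dist_eq_norm]
    · simpa [PP, st] using hn s hs
    · simp only [PP, st, sub_neg_eq_add, ← map_add, LinearIsometryEquiv.norm_map]
      exact (hq _ (hRD k s hs)).2.1
    · simp only [PP, st, ← map_sub, LinearIsometryEquiv.norm_map]
      exact (hq _ (hRD k s hs)).1
  have bA : ∀ s ∈ D, |UA s - 3 / 2| ≤ δ := fun s hs => by
    have := hn s hs
    unfold UA
    rw [abs_le]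
    constructor <;> nlinarith [norm_nonneg s]
  have bB : ∀ s ∈ D, |UB e (Y s) - 1 / 2| ≤ 2 * δ := fun s hs => by
    have h1 := (hq s hs).1
    have h2 := abs_le.1 (abs_real_inner_le_norm e (Y s - e))
    rw [he, one_mul] at h2
    unfold UB
    rw [abs_le]
    constructor <;> nlinarith [norm_nonneg (Y s - e)]
  have bP : ∀ i, ∀ s ∈ D, |pt e R Y Z i s - W i| ≤ 7 * δ := by
    rintro (_ | ⟨k, _ | _⟩) s hs
    · exact (bA s hs).trans (by linarith)
    · have h1 := abs_le.1 (bA _ (hRD k s hs))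
      have h2 := abs_le.1 (bB _ (hRD k s hs))
      have h3 := abs_lt.1 (hq _ (hRD k s hs)).2.2.2.2
      simp only [pt, W, UC]
      rw [abs_le]
      constructor <;> linarith
    · exact (bB _ (hRD k s hs)).trans (by linarith)
  have bdd : ∀ i, ∀ s ∈ D, 0 ≤ pt e R Y Z i s ∧ pt e R Y Z i s ≤ 2 := fun i s hs => by
    have h1 := abs_le.1 (bP i s hs)
    have h2 : 1 / 2 ≤ W i ∧ W i ≤ 3 / 2 := by rcases i with _ | i <;> norm_num [W]
    constructor <;> linarith
  have sep : ∀ i j, ∀ s ∈ D, ∀ t ∈ D, PP R Y Z i s = PP R Y Z j t → i = j := by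
    intro i j s hs t ht h
    by_contra hij
    have h1 := near i s hs
    rw [h] at h1
    linarith [hsep i j hij, near j t ht, dist_triangle_left (st e R i) (st e R j) (PP R Y Z j t)]
  have strict : ∀ i j l, ¬ Spec i j l → ∀ s ∈ D, ∀ t ∈ D, ∀ r ∈ D,
      ENNReal.ofReal (pt e R Y Z i s + pt e R Y Z j t + pt e R Y Z l r) <
        coulombCost (PP R Y Z i s, PP R Y Z j t, PP R Y Z l r) := by
    intro i j l h s hs t ht r hr
    refine (ENNReal.ofReal_le_ofReal ?_).trans_lt (hst i j l h _ ?_)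
    · linarith [abs_le.1 (bP i s hs), abs_le.1 (bP j t ht), abs_le.1 (bP l r hr)]
    · rw [mem_ball, Prod.dist_eq, Prod.dist_eq]
      exact max_lt (near i s hs) (max_lt (near j t ht) (near l r hr))
  have ne1 : ∀ (a : κ × Bool), ∀ s ∈ D, ∀ t ∈ D, s ≠ PP R Y Z (some a) t := fun a s hs t ht h =>
    absurd (sep none _ s hs t ht h) (by simp)
  have ne2 : ∀ k b, ∀ s ∈ D, ∀ t ∈ D, PP R Y Z (some (k, b)) s ≠ PP R Y Z (some (k, !b)) t :=
    fun k b s hs t ht h => absurd (sep _ _ s hs t ht h) (by simp)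
  have hmR : ∀ k, Measurable (R k : E → E) := fun k => (R k).continuous.measurable
  refine ⟨ε, Y, Z, max 1 K, hε, ?_, ?_, bdd, ?_, sep, ?_, ?_, ?_⟩
  · rintro (_ | ⟨k, _ | _⟩)
    exacts [measurable_id, (hmR k).comp (hZ.comp (hmR k)), (hmR k).comp (hY.comp (hmR k))]
  · have hA : Measurable (UA : E → ℝ) := by
      unfold UA
      fun_prop
    have hB : Measurable (UB e : E → ℝ) := by
      unfold UB
      fun_prop
    rintro (_ | ⟨k, _ | _⟩)
    exacts [hA, (((cR_measurable measurable_id hY hZ).sub hA).sub (hB.comp hY)).comp (hmR k),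
      hB.comp (hY.comp (hmR k))]
  · have h1 : ∀ k, ∀ s ∈ D, ∀ t ∈ D, ‖s - t‖ ≤ K * ‖Y (R k s) - Y (R k t)‖ ∧
        ‖s - t‖ ≤ K * ‖Z (R k s) - Z (R k t)‖ := fun k s hs t ht => by
      rw [hYe _ (hRD k s hs), hYe _ (hRD k t ht), hZe _ (hRD k s hs), hZe _ (hRD k t ht),
        ← (R k).norm_map (s - t), map_sub]
      exact hlip₀ _ (hRD k s hs) _ (hRD k t ht)
    rintro (_ | ⟨k, _ | _⟩) s hs t ht
    · exact le_mul_of_one_le_left (norm_nonneg _) (le_max_left _ _)
    · simp only [PP, ← map_sub, LinearIsometryEquiv.norm_map]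
      exact (h1 k s hs t ht).2.trans
        (mul_le_mul_of_nonneg_right (le_max_right _ _) (norm_nonneg _))
    · simp only [PP, ← map_sub, LinearIsometryEquiv.norm_map]
      exact (h1 k s hs t ht).1.trans
        (mul_le_mul_of_nonneg_right (le_max_right _ _) (norm_nonneg _))
  · intro i j l s hs t ht r hr
    by_cases h : Spec i j l
    swap
    · exact (strict i j l h s hs t ht r hr).le
    have h0 : ∀ s, PP R Y Z none s = s := fun _ => rfl
    obtain ⟨k, b, ⟨rfl, rfl, rfl⟩ | ⟨rfl, rfl, rfl⟩ | ⟨rfl, rfl, rfl⟩⟩ := h <;> rw [h0]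
    · rw [ofReal_cR_le _ _ _ (ne1 _ s hs t ht) (ne1 _ s hs r hr) (ne2 k b t ht r hr)]
      exact ENNReal.ofReal_le_ofReal (spec_pair he hp hRR k b ht hr (ne1 _ s hs t ht)
        (ne1 _ s hs r hr) (ne2 k b t ht r hr)).1
    · rw [ofReal_cR_le _ _ _ (ne1 _ t ht s hs).symm (ne2 k b s hs r hr) (ne1 _ t ht r hr),
        cR_swap12, add_comm (pt e R Y Z _ s)]
      exact ENNReal.ofReal_le_ofReal (spec_pair he hp hRR k b hs hr (ne1 _ t ht s hs)
        (ne1 _ t ht r hr) (ne2 k b s hs r hr)).1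
    · rw [ofReal_cR_le _ _ _ (ne2 k b s hs t ht) (ne1 _ r hr s hs).symm (ne1 _ r hr t ht).symm,
        cR_swap23, cR_swap12, add_comm _ (pt e R Y Z none r), ← add_assoc]
      exact ENNReal.ofReal_le_ofReal (spec_pair he hp hRR k b hs ht (ne1 _ r hr s hs)
        (ne1 _ r hr t ht) (ne2 k b s hs t ht)).1
  · intro k s hs
    rw [ofReal_cR_le _ _ _ (ne1 (k, true) s hs s hs) (ne1 (k, false) s hs s hs)
      (ne2 k true s hs s hs)]
    congr 1
    have h := cR_isometry (R k) (R k s) (Y (R k s)) (Z (R k s))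
    rw [hRR] at h
    simp only [PP, pt, UC, h, UA_isometry]
    ring
  · intro j l s hs t ht r hr h
    by_cases h1 : Spec none j l
    swap
    · exact absurd h (strict none j l h1 s hs t ht r hr).ne'
    obtain ⟨k, b, ⟨-, rfl, rfl⟩ | ⟨-, h2, -⟩ | ⟨-, h2, -⟩⟩ := h1
    · rw [ofReal_cR_le _ _ _ (ne1 _ s hs t ht) (ne1 _ s hs r hr) (ne2 k b t ht r hr),
        ENNReal.ofReal_eq_ofReal_iff (by unfold cR; positivity)
          (add_nonneg (add_nonneg (bdd _ s hs).1 (bdd _ t ht).1) (bdd _ r hr).1)] at h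
      exact ⟨(k, b), (spec_pair he hp hRR k b ht hr (ne1 _ s hs t ht)
        (ne1 _ s hs r hr) (ne2 k b t ht r hr)).2 h.symm⟩
    · exact absurd h2 (by simp)
    · exact absurd h2 (by simp)

end Vale.Agent.N121
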