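import Vale.Agent.N121.Geo
import Vale.Agent.N121.Defs

/-! A central cluster with many pairs of satellites: the measures. -/

open MeasureTheory Set Metric
open scoped ENNReal NNReal RealInnerProductSpace

namespace Vale.Agent.N121

open Vale.Agent.P121

variable {E : Type*} [NormedAddCommGroup E] [MeasurableSpace E] [BorelSpace E]
  [SecondCountableTopology E] [CompleteSpace E]

theorem exists_glue {ι β : Type*} [Countable ι] [MeasurableSpace β] [Nonempty β] {D : Set E}
    (hD : MeasurableSet D) {P : ι → E → E} (hP : ∀ i, Measurable (P i))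
    (hinj : ∀ i j, ∀ s ∈ D, ∀ t ∈ D, P i s = P j t → i = j ∧ s = t) {f : ι → E → β}
    (hf : ∀ i, Measurable (f i)) : ∃ g : E → β, Measurable g ∧ ∀ i, ∀ s ∈ D, g (P i s) = f i s := by
  let _ : MeasurableSpace ι := ⊤
  have : DiscreteMeasurableSpace ι := ⟨fun _ => trivial⟩
  have : StandardBorelSpace D := hD.standardBorel
  have h1 : Measurable fun q : ι × D => P q.1 q.2 :=
    measurable_from_prod_countable_right fun i => (hP i).comp measurable_subtype_coe
  have h2 : Measurable fun q : ι × D => f q.1 q.2 :=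
    measurable_from_prod_countable_right fun i => (hf i).comp measurable_subtype_coe
  have h3 : Function.Injective fun q : ι × D => P q.1 q.2 := fun q r h =>
    Prod.ext (hinj _ _ _ q.2.2 _ r.2.2 h).1 (Subtype.ext (hinj _ _ _ q.2.2 _ r.2.2 h).2)
  obtain ⟨g, hg, h4⟩ := (h1.measurableEmbedding h3).exists_measurable_extend h2
    fun _ => inferInstance
  exact ⟨g, hg, fun i s hs => congrFun h4 (i, ⟨s, hs⟩)⟩

/-- The marginal. -/
noncomputable def mu {K : ℕ} (ν : Measure E) (P : Option (Fin K × Bool) → E → E) : Measure E :=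
  (3 * K : ℝ≥0∞)⁻¹ • ∑ k, (ν + ν.map (P (some (k, true))) + ν.map (P (some (k, false))))

/-- The optimal plan. -/
noncomputable def plan {K : ℕ} (ν : Measure E) (P : Option (Fin K × Bool) → E → E) :
    Measure (E × E × E) :=
  (3 * K : ℝ≥0∞)⁻¹ • ∑ k, branch ν (P (some (k, true))) (P (some (k, false)))

variable {K : ℕ} {ν : Measure E} {P : Option (Fin K × Bool) → E → E} {D : Set E}

omit [NormedAddCommGroup E] [BorelSpace E] [SecondCountableTopology E] [CompleteSpace E] in
theorem mu_apply (hP : ∀ i, Measurable (P i)) {A : Set E} (hA : MeasurableSet A) :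
    mu ν P A = (3 * K : ℝ≥0∞)⁻¹ * (K * ν A + ∑ a, ν (P (some a) ⁻¹' A)) := by
  simp only [mu, Measure.smul_apply, smul_eq_mul, Measure.finsetSum_apply, Measure.add_apply,
    Measure.map_apply (hP _) hA, Fintype.sum_prod_type, Fintype.sum_bool, Finset.sum_add_distrib,
    Finset.sum_const, Finset.card_univ, Fintype.card_fin, nsmul_eq_mul, add_assoc]

omit [BorelSpace E] [SecondCountableTopology E] [CompleteSpace E] in
theorem plan_coupling (hP : ∀ i, Measurable (P i)) : IsCoupling (mu ν P) (plan ν P) := by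
  have h := fun k : Fin K => branch_marginals ν (hP (some (k, true))) (hP (some (k, false)))
  have key : ∀ f : E × E × E → E, Measurable f →
      (∀ k, (branch ν (P (some (k, true))) (P (some (k, false)))).map f =
        ν + ν.map (P (some (k, true))) + ν.map (P (some (k, false)))) →
      (plan ν P).map f = mu ν P := fun f hf h => by
    rw [plan, Measure.map_smul, ← Measure.mapₗ_apply_of_measurable hf, map_sum]
    simp only [Measure.mapₗ_apply_of_measurable hf, h, mu]
  exact ⟨key _ measurable_fst fun k => (h k).1, key _ measurable_snd.fst fun k => (h k).2.1,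
    key _ measurable_snd.snd fun k => (h k).2.2⟩

theorem c_mul (hK : 1 ≤ K) : (3 * K : ℝ≥0∞)⁻¹ * K = 3⁻¹ := by
  have h0 : (K : ℝ≥0∞) ≠ 0 := Nat.cast_ne_zero.2 (by omega)
  rw [ENNReal.mul_inv (Or.inl (by norm_num)) (Or.inl (by norm_num)), mul_assoc,
    ENNReal.inv_mul_cancel h0 (ENNReal.natCast_ne_top K), mul_one]

theorem three_sum : (3 : ℝ≥0∞)⁻¹ + 2 / 3 = 1 := by
  rw [div_eq_mul_inv, ← one_add_mul, show (1 : ℝ≥0∞) + 2 = 3 by norm_num]
  exact ENNReal.mul_inv_cancel (by norm_num) (by norm_num)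

theorem abstractK (hK : 1 ≤ K) [IsProbabilityMeasure ν] (hD : MeasurableSet D) (hν : ν Dᶜ = 0)
    (hP0 : ∀ x, P none x = x) (hP : ∀ i, Measurable (P i))
    (hinj : ∀ i j, ∀ s ∈ D, ∀ t ∈ D, P i s = P j t → i = j ∧ s = t)
    {u : Option (Fin K × Bool) → E → ℝ≥0∞} (hu : ∀ i, Measurable (u i))
    (hub : ∀ i, ∀ s ∈ D, u i s ≤ 2)
    (hle : ∀ i j l, ∀ s ∈ D, ∀ t ∈ D, ∀ r ∈ D,
      u i s + u j t + u l r ≤ coulombCost (P i s, P j t, P l r))
    (heq : ∀ k, ∀ s ∈ D, coulombCost (s, P (some (k, true)) s, P (some (k, false)) s) =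
      u none s + u (some (k, true)) s + u (some (k, false)) s)
    (hcon : ∀ j l, ∀ s ∈ D, ∀ t ∈ D, ∀ r ∈ D,
      coulombCost (s, P j t, P l r) = u none s + u j t + u l r → ∃ a, P j t = P (some a) s) :
    IsProbabilityMeasure (mu ν P) ∧ kantorovich (mu ν P) < ⊤ ∧
      ∀ m, 1 ≤ m → m ≤ K → IsGreatest (graphMass (mu ν P) m) (2 / 3 + m / (3 * K)) := by
  set c : ℝ≥0∞ := (3 * K : ℝ≥0∞)⁻¹ with hc
  have hc1 : c * K = 3⁻¹ := c_mul hK
  have hc2 : c * (2 * K) = 2 / 3 := by rw [mul_left_comm, hc1, div_eq_mul_inv]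
  have hprob : IsProbabilityMeasure (mu ν P) := ⟨by
    rw [mu_apply hP MeasurableSet.univ]
    simp only [preimage_univ, measure_univ, mul_one, Finset.sum_const, Finset.card_univ,
      Fintype.card_prod, Fintype.card_fin, Fintype.card_bool, nsmul_eq_mul, Nat.cast_mul,
      Nat.cast_ofNat]
    rw [mul_add, mul_comm (K : ℝ≥0∞) 2, hc1, hc2, three_sum]⟩
  have hDa : ∀ᵐ x ∂ν, x ∈ D := by
    rw [ae_iff]
    exact hν
  obtain ⟨U, hU, hUe⟩ := exists_glue hD hP hinj hu
  have hU0 : ∀ s ∈ D, U s = u none s := fun s hs => by rw [← hUe none s hs, hP0]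
  have hPi : ∀ i, InjOn (P i) D := fun i s hs t ht h => (hinj i i s hs t ht h).2
  have hS : ∀ᵐ x ∂mu ν P, x ∈ ⋃ i, P i '' D := by
    have h : ∀ i, ∀ᵐ x ∂ν.map (P i), x ∈ ⋃ i, P i '' D := fun i =>
      (ae_map_mem_image hD hν (hP i) (hPi i)).mono fun x hx => mem_iUnion.2 ⟨i, hx⟩
    refine Measure.ae_smul_measure (ae_sum_measure _ _ fun k _ => ?_) _
    rw [ae_add_measure_iff, ae_add_measure_iff]
    exact ⟨⟨hDa.mono fun x hx => mem_iUnion.2 ⟨none, x, hx, hP0 x⟩, h _⟩, h _⟩
  have hle' : ∀ x ∈ ⋃ i, P i '' D, ∀ y ∈ ⋃ i, P i '' D, ∀ z ∈ ⋃ i, P i '' D,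
      U x + U y + U z ≤ coulombCost (x, y, z) := by
    simp only [mem_iUnion]
    rintro _ ⟨i, s, hs, rfl⟩ _ ⟨j, t, ht, rfl⟩ _ ⟨l, r, hr, rfl⟩
    rw [hUe i s hs, hUe j t ht, hUe l r hr]
    exact hle i j l s hs t ht r hr
  have hfin : 3 * ∫⁻ x, U x ∂mu ν P ≠ ∞ := by
    refine ENNReal.mul_ne_top (by norm_num) (ne_top_of_le_ne_top (b := 2) (by norm_num) ?_)
    refine (lintegral_mono_ae (g := fun _ => 2) (hS.mono fun x hx => ?_)).trans (by simp)
    obtain ⟨i, s, hs, rfl⟩ := mem_iUnion.1 hx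
    rw [hUe i s hs]
    exact hub i s hs
  have hae : ∀ᵐ p ∂plan ν P, coulombCost p = U p.1 + U p.2.1 + U p.2.2 :=
    Measure.ae_smul_measure (ae_sum_measure _ _ fun k _ => branch_ae hν (hP _) (hP _) hU
      fun s hs => by rw [heq k s hs, hU0 s hs, hUe _ s hs, hUe _ s hs]) _
  have hval : kantorovich (mu ν P) = 3 * ∫⁻ x, U x ∂mu ν P :=
    le_antisymm (kantorovich_le (plan_coupling hP) hU hae) (le_kantorovich hS hU hle')
  have hopt : IsOptimal (mu ν P) (plan ν P) := ⟨plan_coupling hP, by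
    rw [hval, ← lintegral_coupling (plan_coupling hP) hU]
    exact lintegral_congr_ae hae⟩
  have himg : ∀ a, ∀ A, MeasurableSet A → A ⊆ D → mu ν P (P (some a) '' A) ≤ c * ν A := by
    intro a A hA hAD
    have h0 : ∀ i, i ≠ some a → ν (P i ⁻¹' (P (some a) '' A)) = 0 := fun i hi =>
      measure_mono_null (t := Dᶜ)
        (fun x ⟨y, hy, h⟩ hx => hi (hinj _ _ y (hAD hy) x hx h).1.symm) hν
    have h1 : ν (P (some a) '' A) = 0 := by
      have := h0 none (by simp)
      rwa [show P none = id from funext hP0, preimage_id] at this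
    rw [mu_apply hP (hA.image_of_measurable_injOn (hP _) ((hPi _).mono hAD)), h1, mul_zero,
      zero_add, Finset.sum_eq_single a (fun b _ hb => h0 _ (by simpa using hb)) (by simp)]
    refine mul_le_mul_right (measure_mono_ae (hDa.mono fun x hx h => ?_)) _
    obtain ⟨y, hy, h⟩ := h
    exact hPi _ (hAD hy) hx h ▸ hy
  have hDc : mu ν P Dᶜ ≤ 2 / 3 := by
    rw [mu_apply hP hD.compl, hν, mul_zero, zero_add, ← hc2]
    gcongr
    refine (Finset.sum_le_sum fun a _ => prob_le_one).trans ?_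
    simp [mul_comm]
  have upper : ∀ m : ℕ, ∀ π, IsOptimal (mu ν P) π → ∀ T : Fin m → E → E × E,
      (∀ i, Measurable (T i)) → π {p | ∃ i, p.2 = T i p.1} ≤ 2 / 3 + m / (3 * K) := by
    intro m π hπ T hT
    have hmem := coupling_ae_mem hπ.1 hS
    have hint := lintegral_coupling hπ.1 hU
    have hcontact : (fun p : E × E × E => U p.1 + U p.2.1 + U p.2.2) =ᵐ[π] coulombCost :=
      ae_eq_of_ae_le_of_lintegral_le (hmem.mono fun p hp => hle' _ hp.1 _ hp.2.1 _ hp.2.2)
        (by rw [hint]; exact hfin) measurable_coulombCost.aemeasurable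
        (by rw [hint, hπ.2, hval])
    have hA : ∀ i a, MeasurableSet {x | x ∈ D ∧ (T i x).1 = P (some a) x} := fun i a =>
      hD.inter (measurableSet_eq_fun (hT i).fst (hP _))
    have one : ∀ i, π {p | p.1 ∈ D ∧ p.2 = T i p.1} ≤ c := by
      intro i
      have h1 : {p : E × E × E | p.1 ∈ D ∧ p.2 = T i p.1} ≤ᵐ[π] ⋃ a, (fun p => p.2.1) ⁻¹'
          (P (some a) '' {x | x ∈ D ∧ (T i x).1 = P (some a) x}) := by
        filter_upwards [hmem, hcontact] with p hp hq hr
        obtain ⟨j, t, ht, e1⟩ := mem_iUnion.1 hp.2.1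
        obtain ⟨l, r, hr', e2⟩ := mem_iUnion.1 hp.2.2
        obtain ⟨a, ha⟩ := hcon j l p.1 hr.1 t ht r hr' (by
          rw [← hU0 _ hr.1, ← hUe j t ht, ← hUe l r hr', e1, e2]
          exact hq.symm)
        rw [e1] at ha
        exact mem_iUnion.2 ⟨a, p.1, ⟨hr.1, by rw [← hr.2, ha]⟩, ha.symm⟩
      refine (measure_mono_ae h1).trans ((measure_iUnion_fintype_le _ _).trans ?_)
      have h2 : ∀ a, π ((fun p => p.2.1) ⁻¹'
          (P (some a) '' {x | x ∈ D ∧ (T i x).1 = P (some a) x})) ≤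
          c * ν {x | x ∈ D ∧ (T i x).1 = P (some a) x} := fun a => by
        refine le_trans ?_ (himg a _ (hA i a) fun x hx => hx.1)
        rw [← hπ.1.2.1]
        exact Measure.le_map_apply measurable_snd.fst.aemeasurable _
      refine (Finset.sum_le_sum fun a _ => h2 a).trans ?_
      rw [← Finset.mul_sum, ← tsum_fintype (L := SummationFilter.unconditional _),
        ← measure_iUnion ?_ (hA i)]
      · exact mul_le_of_le_one_right' prob_le_one
      · intro a b hab
        exact disjoint_left.2 fun x h1 h2 =>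
          hab (Option.some.inj (hinj _ _ x h1.1 x h1.1 (h1.2.symm.trans h2.2)).1)
    calc π {p | ∃ i, p.2 = T i p.1}
        ≤ π ((fun p => p.1) ⁻¹' Dᶜ ∪ ⋃ i, {p | p.1 ∈ D ∧ p.2 = T i p.1}) := by
          refine measure_mono fun p ⟨i, hi⟩ => ?_
          by_cases h : p.1 ∈ D
          exacts [Or.inr (mem_iUnion.2 ⟨i, h, hi⟩), Or.inl h]
      _ ≤ 2 / 3 + ∑ _ : Fin m, c := by
          refine (measure_union_le _ _).trans (add_le_add ?_
            ((measure_iUnion_fintype_le _ _).trans (Finset.sum_le_sum fun i _ => one i)))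
          rw [← Measure.map_apply measurable_fst hD.compl, hπ.1.1]
          exact hDc
      _ = _ := by simp [div_eq_mul_inv, hc]
  refine ⟨hprob, by rw [hval]; exact hfin.lt_top, fun m hm hmK => ⟨?_, ?_⟩⟩
  swap
  · rintro _ ⟨π, hπ, T, hT, rfl⟩
    exact upper m π hπ T hT
  have hT : ∀ k : Fin K, ∃ g : E → E × E, Measurable g ∧ ∀ s ∈ D,
      g s = (P (some (k, true)) s, P (some (k, false)) s) ∧ ∀ j,
        g (P (some (j, true)) s) = (P (some (j, false)) s, s) ∧
        g (P (some (j, false)) s) = (s, P (some (j, true)) s) := fun k => by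
    obtain ⟨g, hg, h⟩ := exists_glue hD hP hinj (f := fun i s => match i with
      | none => (P (some (k, true)) s, P (some (k, false)) s)
      | some (j, true) => (P (some (j, false)) s, s)
      | some (j, false) => (s, P (some (j, true)) s)) (by
        rintro (_ | ⟨j, _ | _⟩)
        exacts [(hP _).prodMk (hP _), measurable_id.prodMk (hP _), (hP _).prodMk measurable_id])
    exact ⟨g, hg, fun s hs => ⟨by simpa [hP0] using h none s hs, fun j => ⟨h _ s hs, h _ s hs⟩⟩⟩
  choose T hT hTe using hT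
  refine ⟨plan ν P, hopt, fun i => T (i.castLE hmK), fun i => hT _,
    le_antisymm (upper m _ hopt _ fun i => hT _) ?_⟩
  set G := {p : E × E × E | ∃ i : Fin m, p.2 = T (i.castLE hmK) p.1} with hG
  have key : ∀ f : E → E × E × E, Measurable f → (∀ s ∈ D, f s ∈ G) → 1 ≤ ν.map f G :=
    fun f hf h => le_trans (by
      rw [← measure_univ (μ := ν)]
      exact measure_mono_ae (hDa.mono fun x hx _ => h x hx)) (Measure.le_map_apply hf.aemeasurable _)
  have h1 : ∀ k : Fin K, (if k.1 < m then 1 else 0) + 1 + 1 ≤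
      branch ν (P (some (k, true))) (P (some (k, false))) G := fun k => by
    rw [branch, Measure.add_apply, Measure.add_apply]
    refine add_le_add (add_le_add ?_ (key _ ((hP _).prodMk ((hP _).prodMk measurable_id))
      fun s hs => ⟨⟨0, hm⟩, ((hTe _ s hs).2 k).1.symm⟩))
      (key _ ((hP _).prodMk (measurable_id.prodMk (hP _)))
        fun s hs => ⟨⟨0, hm⟩, ((hTe _ s hs).2 k).2.symm⟩)
    split_ifs with h
    · exact key _ (measurable_id.prodMk ((hP _).prodMk (hP _)))
        fun s hs => ⟨⟨k, h⟩, (hTe _ s hs).1.symm⟩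
    · exact zero_le
  rw [plan, Measure.smul_apply, smul_eq_mul, Measure.finsetSum_apply]
  refine le_trans ?_ (mul_le_mul_right (Finset.sum_le_sum fun k _ => h1 k) _)
  have h2 : ∑ k : Fin K, (if k.1 < m then (1 : ℝ≥0∞) else 0) = m := by
    rw [Finset.sum_boole, Fin.card_filter_val_lt, min_eq_right hmK]
  rw [Finset.sum_add_distrib, Finset.sum_add_distrib, h2, ← hc2, ENNReal.div_eq_inv_mul, ← mul_add]
  simp [two_mul, add_assoc, add_comm, hc]

theorem main_K {E : Type*} [NormedAddCommGroup E] [InnerProductSpace ℝ E] [FiniteDimensional ℝ E]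
    [MeasurableSpace E] [BorelSpace E] {K : ℕ} (hK : 1 ≤ K) {e₁ e₂ : E} (h1 : ‖e₁‖ = 1)
    (h2 : ‖e₂‖ = 1) (h12 : ⟪e₁, e₂⟫ = 0) :
    ∃ μ : Measure E, IsProbabilityMeasure μ ∧ μ ≪ volume ∧ kantorovich μ < ⊤ ∧
      ∀ m, 1 ≤ m → m ≤ K → IsGreatest (graphMass μ m) (2 / 3 + m / (3 * K)) := by
  have h21 : ⟪e₂, e₁⟫ = 0 := by rw [real_inner_comm, h12]
  let v : Fin K → E := fun k => e₁ + (k : ℝ) • e₂
  have v1 : ∀ k, ⟪e₁, v k⟫ = 1 := fun k => by simp [v, inner_add_right, inner_smul_right, h1, h12]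
  have v2 : ∀ k, ⟪e₂, v k⟫ = k := fun k => by simp [v, inner_add_right, inner_smul_right, h21, h2]
  have v0 : ∀ k, 0 < ‖v k‖ := fun k => norm_pos_iff.2 fun h => by simpa [h] using v1 k
  let w : Fin K → E := fun k => ‖v k‖⁻¹ • v k
  have w1 : ∀ k, ⟪e₁, w k⟫ = ‖v k‖⁻¹ := fun k => by rw [inner_smul_right, v1, mul_one]
  have w2 : ∀ k, ⟪e₂, w k⟫ = ‖v k‖⁻¹ * k := fun k => by rw [inner_smul_right, v2]
  let R : Fin K → E ≃ₗᵢ[ℝ] E := fun k => (ℝ ∙ (e₁ - w k))ᗮ.reflection
  have hR : ∀ k, R k e₁ = w k := fun k => Submodule.reflection_sub (by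
    rw [h1, norm_smul, norm_inv, norm_norm, inv_mul_cancel₀ (v0 k).ne'])
  obtain ⟨ε, Y, Z, L, hp⟩ := exists_pk (R := R) h1 (fun k l hkl => by
    rw [hR, hR]
    refine ⟨fun h => hkl ?_, fun h => ?_⟩
    · have a1 := w1 k
      have a2 := w2 k
      rw [h, w1] at a1
      rw [h, w2, a1] at a2
      exact Fin.ext (Nat.cast_injective (R := ℝ)
        (mul_left_cancel₀ (inv_pos.2 (v0 k)).ne' a2).symm)
    · have a1 := w1 k
      rw [h, inner_neg_right, w1] at a1
      linarith [inv_pos.2 (v0 k), inv_pos.2 (v0 l)]) fun k => Submodule.reflection_reflection _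
  set D := ball (0 : E) ε
  have hD : MeasurableSet D := isOpen_ball.measurableSet
  have hv0 : volume D ≠ 0 := (isOpen_ball.measure_pos volume ⟨0, mem_ball_self hp.pos⟩).ne'
  let ν : Measure E := (volume D)⁻¹ • volume.restrict D
  have : IsProbabilityMeasure ν := ⟨by
    simp only [ν, Measure.smul_apply, smul_eq_mul, Measure.restrict_apply_univ]
    exact ENNReal.inv_mul_cancel hv0 isBounded_ball.measure_lt_top.ne⟩
  have hν : ν Dᶜ = 0 := by simp [ν, Measure.restrict_apply hD.compl]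
  have hsum : ∀ i j l, ∀ s ∈ D, ∀ t ∈ D, ∀ r ∈ D,
      ENNReal.ofReal (pt e₁ R Y Z i s) + ENNReal.ofReal (pt e₁ R Y Z j t) +
        ENNReal.ofReal (pt e₁ R Y Z l r) =
      ENNReal.ofReal (pt e₁ R Y Z i s + pt e₁ R Y Z j t + pt e₁ R Y Z l r) :=
    fun i j l s hs t ht r hr => by
      rw [ENNReal.ofReal_add (add_nonneg (hp.bdd i s hs).1 (hp.bdd j t ht).1) (hp.bdd l r hr).1,
        ENNReal.ofReal_add (hp.bdd i s hs).1 (hp.bdd j t ht).1]
  obtain ⟨a1, a2, a3⟩ := abstractK (ν := ν) (P := PP R Y Z) hK hD hν (fun _ => rfl) hp.meas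
    (fun i j s hs t ht h => by
      obtain rfl := hp.sep i j s hs t ht h
      have := hp.lip i s hs t ht
      rw [h, sub_self, norm_zero, mul_zero] at this
      exact ⟨rfl, sub_eq_zero.1 (norm_le_zero_iff.1 this)⟩)
    (u := fun i s => ENNReal.ofReal (pt e₁ R Y Z i s)) (fun i => (hp.measp i).ennreal_ofReal)
    (fun i s hs => (ENNReal.ofReal_le_ofReal (hp.bdd i s hs).2).trans (by simp))
    (fun i j l s hs t ht r hr => (hsum i j l s hs t ht r hr).trans_le (hp.le i j l s hs t ht r hr))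
    (fun k s hs => (hp.eq k s hs).trans (hsum _ _ _ s hs s hs s hs).symm)
    fun j l s hs t ht r hr h => hp.con j l s hs t ht r hr (h.trans (hsum _ _ _ s hs t ht r hr))
  refine ⟨_, a1, ?_, a2, a3⟩
  have hac : ∀ i, ν.map (PP R Y Z i) ≪ volume := fun i => by
    rw [Measure.map_smul]
    refine ((Measure.absolutelyContinuous_of_le (map_restrict_le _ (hp.meas i) D L.toNNReal
      fun s hs t ht => (hp.lip i s hs t ht).trans ?_)).trans
      Measure.smul_absolutelyContinuous).smul_left _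
    exact mul_le_mul_of_nonneg_right (Real.le_coe_toNNReal L) (norm_nonneg _)
  refine Measure.AbsolutelyContinuous.mk fun A hA h => ?_
  have h0 : ∀ i, ν (PP R Y Z i ⁻¹' A) = 0 := fun i => by
    rw [← Measure.map_apply (hp.meas i) hA]
    exact hac i h
  rw [mu_apply hp.meas hA, show ν A = 0 from h0 none]
  simp [h0]

theorem main_d (d K : ℕ) (hd : 2 ≤ d) (hK : 1 ≤ K) :
    ∃ μ : Measure (EuclideanSpace ℝ (Fin d)), IsProbabilityMeasure μ ∧ μ ≪ volume ∧
      kantorovich μ < ⊤ ∧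
      ∀ m, 1 ≤ m → m ≤ K → IsGreatest (graphMass μ m) (2 / 3 + m / (3 * K)) :=
  main_K hK (e₁ := EuclideanSpace.single ⟨0, by omega⟩ 1)
    (e₂ := EuclideanSpace.single ⟨1, by omega⟩ 1) (by simp) (by simp)
    (by simp [EuclideanSpace.inner_single_left])

omit [CompleteSpace E] in
theorem one_le_of_monge {μ : Measure E} [IsProbabilityMeasure μ] (h : HasOptimalMongePlan μ)
    {r : ℝ≥0∞} (hr : r ∈ upperBounds (graphMass μ 1)) : 1 ≤ r := by
  obtain ⟨T₂, T₃, hT, h⟩ := h
  have hm : Measurable fun x => (x, T₂ x, T₃ x) := measurable_id.prodMk (hT.1.prodMk hT.2.1)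
  refine le_trans ?_ (hr ⟨_, ⟨hT.isCoupling, (lintegral_map measurable_coulombCost hm).trans h⟩,
    fun _ x => (T₂ x, T₃ x), fun _ => hT.1.prodMk hT.2.1, rfl⟩)
  refine le_trans ?_ (Measure.le_map_apply hm.aemeasurable _)
  rw [← measure_univ (μ := μ)]
  exact measure_mono fun x _ => ⟨0, rfl⟩

end Vale.Agent.N121
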