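import Vale.Agent.N121.Meas

open MeasureTheory
open scoped ENNReal

namespace Vale.Agent.N121.OldGraphs

open Vale.Agent.P121 Vale.Agent.N121

/-- For every `d ≥ 2` and `K ≥ 1` there is an absolutely continuous probability measure with finite
three-marginal Coulomb value for which the largest mass that an optimal plan puts on `m ≤ K` Borel
graphs is `2/3 + m/(3K)`. -/
theorem old_graphs :
    ∀ d K : ℕ, 2 ≤ d → 1 ≤ K →
      ∃ μ : Measure (EuclideanSpace ℝ (Fin d)), IsProbabilityMeasure μ ∧ μ ≪ volume ∧
        kantorovich μ < ⊤ ∧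
        ∀ m : ℕ, 1 ≤ m → m ≤ K → IsGreatest (graphMass μ m) (2 / 3 + m / (3 * K)) :=
  main_d

end Vale.Agent.N121.OldGraphs
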